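import Crest.Agent.X212.Nr78.Fam
import Crest.Agent.X212.Cqn41.Nr0
import Crest.Agent.X212.Nt66.Ln

/-! # Row 212, NT-R (helper78): the leaf ALT-D -/

set_option autoImplicit false
set_option linter.unusedSectionVars false
noncomputable section
open scoped Manifold ContDiff Topology InnerProductSpace
open MeasureTheory Set Function Filter

namespace Crest.Agent.X212.Nr78
open An M Mod61 Nk89 Rf65 Pte3 Qab60 Nr41 Sob92 Prm93 G75 Ins26
open Nt66 (rf ex val_ex exists_rs)

variable {κ lam : Type} [Fintype κ] [Fintype lam] [DecidableEq lam] {Lm : LM κ lam}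
  {S : Scene Lm} {D : S.Dat} {i : S.L} {Wi : Type} {r n : ℕ}
  {J : Job Wi (D.Λ i) (S.A ⊕ Unit) S.ls r n} {c : S.M.Cl} {δ : ℝ} {σ : Cel (S.A ⊕ Unit)} {R : S.A}
  {b : Bp J c} {E : ER σ R b δ} {q : Wi →₀ ℝ} {y : J.Obc c} {x : Pnt E.o r} {ψ : E.K}
  {ξ : (D.W.Z c).M → E.o.m.A}

theorem un_in : D.W.un c {hp R false} = oI D.W c R := An.un_one D.W.toCaps c (hp R false)

theorem ind_in {V : Type} [Zero V] (g : (D.W.Z c).M → V) {z} (hz : z ∈ oI D.W c R) :
    (D.W.un c {hp R false}).indicator g z = (D.W.un c {hp R true, hp R false}).indicator g z :=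
  have k : z ∈ D.W.un c {hp R false} := (un_in (D := D)).ge hz
  (indicator_of_mem k g).trans (indicator_of_mem (biUnion_subset_biUnion_left sub_in k) g).symm

theorem altD_at (C : Cr q y x ψ ξ) {f : E.C → E.Y} (hf : E.Map q f) : AltD C f := by
  rintro - ⟨h0, T, hT, hv⟩
  have H := C.cs.F
  have hS := H.sup
  have off : ∀ {g : (D.W.Z c).M → CL E.o.m.V E.o.m.V} {z v},
      (D.W.un c {hp R false}).indicator g z v = v → z ∉ oI D.W c R → v = 0 := fun e hz =>
    ind_off e fun k => hz ((un_in (D := D)).le k)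
  have mp : ∀ z v, (rf E x.t {hp R false} {hp R false} ∅).Pp z v = v → E.o.Pp z v = v :=
    fun z v e => by
      by_cases hz : z ∈ oI D.W c R
      · exact (DFunLike.congr_fun (ind_in _ hz) v).symm.trans e
      · rw [off e hz, map_zero]
  have vx := val_ex hS (k := 9) (by norm_num) mp
  have tg := fun φ' => h0 (ex _ 9 _ _ φ') fun z hz =>
    (congrFun (vx φ') z).trans (off (val_proj hS (by norm_num) φ' z) hz)
  rw [C.idr] at hT
  by_cases j : Injective T
  · refine .inl fun e he => ?_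
    obtain ⟨e', k⟩ := exists_rs hS (k := 8) (by norm_num)
      (P := (rf E x.t {hp R false} {hp R false} ∅).Pm) (un_in (D := D) ▸ An.Job.isClopen_un
        fun ρ k => C.cs.pok.pc ρ (sub_in k)) (fun z hz => ind_in _ hz) e.1.1 he.D
    obtain ⟨φ', rfl⟩ := hT.surj_of_inj j e'
    have t := tg φ'
    refine ⟨_, Prod.ext (Y_ext H (by norm_num) (funext fun z => ?_) (funext fun z =>
      (t.C z (notMem_empty z)).trans (he.C z (notMem_empty z)).symm) (t.S.trans he.S.symm))
      (Prod.ext (funext fun l => (t.T l (notMem_empty _)).1.trans (he.T l (notMem_empty _)).1.symm)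
        (funext fun l => (t.T l (notMem_empty _)).2.trans (he.T l (notMem_empty _)).2.symm))⟩
    by_cases hz : z ∈ oI D.W c R
    · exact (hv φ' _ (vx φ') z hz).trans (congrFun k z)
    · exact (t.D z hz).trans (he.D z hz).symm
  obtain ⟨φ', k, k0⟩ : ∃ φ', T φ' = 0 ∧ φ' ≠ 0 := by
    simpa only [injective_iff_map_eq_zero, not_forall, exists_prop] using j
  have t := tg φ'
  have e : Ld f x ψ ((0, ex _ 9 _ _ φ', 0), 0) = 0 := by
    refine Prod.ext (Y_ext H (by norm_num) ((funext fun z => ?_).trans val_zero.symm)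
      ((funext fun z => t.C z (notMem_empty z)).trans val_zero.symm) t.S)
      (Prod.ext (funext fun l => (t.T l (notMem_empty _)).1)
        (funext fun l => (t.T l (notMem_empty _)).2))
    by_cases hz : z ∈ oI D.W c R
    · exact (hv φ' _ (vx φ') z hz).trans (k ▸ congrFun val_zero z)
    · exact t.D z hz
  have d := ((hf.sm.contDiffAt ((Nt66.open_C H).mem_nhds (x := (x.pt 8, ψ))
    ⟨x.mem_U, trivial⟩)).differentiableAt (by simp)).hasFDerivAt
  have d' := (HasFDerivAt.comp (x.pt 8) (f := fun v => (v, ψ)) d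
    ((hasFDerivAt_id _).prodMk (hasFDerivAt_const ψ _))).fst
  refine .inr ⟨_, hs_ker H x mp (fun z v e => ?_) (C.cs.sm.aff.tot H C.cs.sm.sm q) (by norm_num)
    (f := fun v => (f (v, ψ)).1) ⟨(hf.sm.comp (contDiffOn_id.prodMk contDiffOn_const)
      fun _ k => ⟨k, trivial⟩).fst, fun y => hf.e y ψ⟩ φ' ((DFunLike.congr_fun d'.fderiv _).trans
      (congrArg Prod.fst e)), fun k => k0 (val_injective hS (by norm_num : 4 ≤ 9)
      (((vx φ').symm.trans k).trans val_zero.symm)), fun z hz => (congrFun (vx φ') z).trans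
      (off (val_proj hS (by norm_num) φ' z) hz), ?_⟩
  · exact (em (z ∈ oI D.W c R)).symm.imp (off e) (C.ins.ab.z z)
  · rwa [ofV_eq hS (by norm_num) rfl]

/-- **LEAF ALT-D** -/
theorem altD (Lm : LM κ lam) : All Lm AltD := fun _ _ _ _ _ _ _ _ _ _ =>
  ⟨1, one_pos, fun _ _ _ _ _ _ _ _ _ _ _ C _ hf => altD_at C hf⟩

end Crest.Agent.X212.Nr78
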