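import Crest.Agent.X212.Cht98.TrC
import Crest.Agent.X212.Mod61.Rig
import Crest.Agent.X212.Map77.Fin

/-! # Row 212, NT-R (helper78): spinors in the kernel where the base spinor vanishes are smooth -/

set_option autoImplicit false
set_option linter.unusedSectionVars false
noncomputable section
open scoped Manifold ContDiff Topology InnerProductSpace
open MeasureTheory Set Function Filter

namespace Crest.Agent.X212.Nr78
open An Sob92 Prm93 Map77 Mod61 Nk89

variable {E : Type} [NormedAddCommGroup E] [NormedSpace ℝ E] [FiniteDimensional ℝ E]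
  [MeasurableSpace E] [BorelSpace E]
  {HM : Type} [TopologicalSpace HM] {I : ModelWithCorners ℝ E HM} [I.Boundaryless]
  {M : Type} [TopologicalSpace M] [ChartedSpace HM M] [IsManifold I ∞ M]
  [MeasurableSpace M] [T2Space M] [BorelSpace M] [SecondCountableTopology M]
  {ι lam : Type} [Fintype ι] [Fintype lam] {T : Type} [NormedAddCommGroup T] [NormedSpace ℝ T]
  {𝔉 : Fam I M ι lam T} (h : 𝔉.OK) {o : Ref 𝔉} {r n m k : ℕ} (y : Pnt o r)
  {Q : M → CL o.m.V o.m.V} (e : Maps Q o.Pp fun _ => .id ℝ _)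
  (e0 : ∀ x v, Q x v = v → v = 0 ∨ y.cfg.Φ x = 0)
include h e e0

/-- the gauge row vanishes -/
theorem sig_zero (φ : 𝔉.F0.H (k + 1) Q) :
    sig (Fs 𝔉) k y (0, 𝔉.F0.mulH (k + 1) Q o.Pp (fun _ => .id ℝ _) φ, 0) = 0 := by
  have H := (adj_rem h).hy o y.ht
  have key := RepT_eq (RepT_comp (H.toTw.rep (H.nc_row (cb_uy h y)) k) (RepT_comp
    (rep_SH (k := k + 1) o h y.ht) (RepT_comp rep_iH2 (rep_mulH (Cb_const _) e)))) RepT_zero
    fun u => funext fun x => by
      have s : (fun x => SC o (𝔉.S y.t) x (i2 _ _ (ContinuousLinearMap.id ℝ _ (u.1 x)))) =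
          fun x => i2 _ _ (u.1 x) := funext fun x => ext2 (by simp [SC]) (by simp [SC])
      rw [s]
      refine (Cht98.row_eq (x := x) (ok_bd o h) (Fs 𝔉 y.t) (cb_Pg o h).choose_spec.1
        (cb_P1 o h).choose_spec.1 (fun a => (y.ad0 h).conn.sk a x) ⟨fun x => i2 _ _ (u.1 x),
          fun x => Wz78.SA.clm (i2 (Fm ι o.m.A) o.m.V) (u.2.1 x), u.2.2.1.mono fun x hx k => hx (by simp [k]),
          fun x => maps_i2 x _ (e x _ (u.2.2.2 x))⟩).trans ?_
      rcases e0 x _ (u.2.2.2 x) with k | k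
      · simp [Wz78.nab, dv_const, k, rk1]
      · simp [Wz78.nab, dv_const, show o.Φ0 x + y.φ x = 0 from k, rk1]
  rw [sig_apply, sC, ContinuousLinearMap.comp_apply, jC_apply, map_zero, zero_add]
  exact DFunLike.congr_fun key φ

/-- smoothness of the kernel -/
theorem hs_ker {ε : T → PtX M ι lam r n m} (he : Aff o (Fs 𝔉) r n m ε) (hk : 7 ≤ k)
    {f : o.C r k → o.Y n m k} (hf : RepF ε f) (φ : 𝔉.F0.H (k + 1) Q)
    (h1 : fderiv ℝ f (y.pt k) (0, 𝔉.F0.mulH (k + 1) Q o.Pp (fun _ => .id ℝ _) φ, 0) = 0) :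
    𝔉.F0.val _ _ (𝔉.F0.mulH (k + 1) Q o.Pp (fun _ => .id ℝ _) φ) ∈ Hs 𝔉.F0.toPre o.Pp :=
  Hs_of_all h.sup (by omega) fun j hj => by
    obtain ⟨i, rfl⟩ : ∃ i, j = i + 1 := ⟨j - 1, by omega⟩
    obtain ⟨g, hg⟩ := lin_boot (adj_rem h) he hk y hf rfl h1 (sig_zero h y e e0 φ) (j := i) (by omega)
    exact ⟨g.2.1, congrArg (·.2.1) hg⟩

end Crest.Agent.X212.Nr78
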